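import Vale.Agent.P352.GFDefs

namespace Vale.Agent.P352.BW

open GF

noncomputable section

variable {D : Type*} [NormedAddCommGroup D] [InnerProductSpace ℂ D]

/-- A tensor multiplet of fields of scaling dimension `d`. -/
def IsTd (Q : Theory D) (k : ℕ) (d : ℝ) (Φ : (Fin k → Ix) → Fld D) : Prop :=
  (∀ μ, Q.fld (Φ μ)) ∧ ∀ μ s L f v, 0 < s → IsLor L → IsTest f →
    Φ μ f (Q.U s L 0 v) = ∑ ν : Fin k → Ix, ((s ^ (4 - d) * ∏ i, L (ν i) (μ i) : ℝ) : ℂ) •
      Q.U s L 0 (Φ ν (fun x => f (sim s L 0 x)) v)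

/-- The vectors `Φ Ω`, `Φ` a tensor field with a scaling dimension, are total. -/
def Tot (Q : Theory D) : Prop := ∀ S : Submodule ℂ D, (∀ k d Φ μ f, IsTd Q k d Φ → IsTest f →
  HasCompactSupport f → Φ μ f Q.vac ∈ S) → Dense (S : Set D)

/-- Tensor fields of rank `k`, `k'` and dimension `d`, `d'` are orthogonal in the vacuum if
`d - k` and `d' - k'` do not differ by an even integer. -/
def Orth (Q : Theory D) : Prop := ∀ k d Φ μ f k' d' Φ' μ' f', IsTd Q k d Φ → IsTd Q k' d' Φ' →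
  IsTest f → IsTest f' → (∀ n : ℤ, d - k - (d' - k') ≠ 2 * n) →
    inner ℂ (Φ μ f Q.vac) (Φ' μ' f' Q.vac) = 0

end

end Vale.Agent.P352.BW
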