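import Vale.Agent.P352.BW.H49.Pct
import Vale.Agent.P352.BW.H49.OrDefs
import Vale.Agent.P352.BW.H732.Lc.S
import Vale.Agent.P352.BW.H728.Lc.T1
import Vale.Agent.P352.BW.Mb
import Vale.Agent.P352.BW.L.O
import Vale.Agent.P352.H246.Part
import Vale.Agent.P352.H246.Dens
import Vale.Agent.P352.H246.Alg

/-!
# P352 BW: the modular unitaries of the light cone, from the two-point functions (helper49)
-/

set_option linter.all false

noncomputable section

open MeasureTheory SchwartzMap Filter Topology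
open scoped SchwartzMap ComplexConjugate InnerProductSpace BoundedContinuousFunction

namespace Vale.Agent.P352.BW.H49

open Vale.Agent.P132 (ModData expB exists_modData)
open UniformSpace (Completion)
open GF H246 H496 H755 H15

variable {D : Type*} [NormedAddCommGroup D] [InnerProductSpace ℂ D] {Q : Theory D}
  {A : (V → V) → D → D} {𝒜 : Set V → VonNeumannAlgebra (Completion D)}

/-! ### multiplets -/

theorem ten_td {k : ℕ} {d : ℝ} {Φ : (Fin k → Ix) → Fld D} (h : IsTd Q k d Φ) : T.Ten Q k Φ := by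
  refine ⟨h.1, fun μ L f v hL hf => ?_⟩
  have := h.2 μ 1 L f v one_pos hL hf
  simpa only [Real.one_rpow, one_mul] using this

theorem fz_td {k : ℕ} {d : ℝ} {Φ : (Fin k → Ix) → Fld D} (h : IsTd Q k d Φ) (μ : Fin k → Ix) :
    L.Fz Q d (Φ μ) := by
  refine ⟨h.1 μ, fun s f v hs hf => ?_⟩
  rw [h.2 μ s GF.one f v hs isLor_one hf, Finset.sum_eq_single μ]
  · have : ∀ i, GF.one (μ i) (μ i) = 1 := fun i => by simp [GF.one, bas]
    simp [this]
  · intro ν _ hν
    obtain ⟨i, hi⟩ : ∃ i, ν i ≠ μ i := by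
      by_contra hc
      push Not at hc
      exact hν (funext hc)
    have : ∏ i, GF.one (ν i) (μ i) = 0 :=
      Finset.prod_eq_zero (Finset.mem_univ i) (by simp [GF.one, bas, Ne.symm hi])
    rw [this]
    simp
  · intro h
    exact absurd (Finset.mem_univ _) h

lemma surj_sim (h : Rep Q A) {s : ℝ} (hs : 0 < s) {L : Ix → V} (hL : IsLor L) (w : D) :
    Q.U s L 0 (Q.U s⁻¹ (linv L) 0 w) = w := by
  rw [h.mul s L 0 s⁻¹ (linv L) 0 w hs (inv_pos.2 hs) hL (isLor_linv hL), linv_id hL, sim_zero',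
    mul_inv_cancel₀ hs.ne']
  exact Uone w

lemma test_sim {s : ℝ} (hs : 0 < s) {L : Ix → V} (hL : IsLor L) {f : Fn} (hf : GF.IsTest f) :
    GF.IsTest (fun x => f (sim s L 0 x)) := by
  have h1 := Lc.test_scale hs.ne' (T.test_lor hL hf)
  have e : (fun x => f (sim s L 0 x)) = fun x => T.cp L f (sim s GF.one 0 x) := by
    funext x
    show f (sim s L 0 x) = f (sim 1 L 0 (sim s GF.one 0 x))
    congr 1
    funext n
    simp only [sim, GF.one, bas, Pi.zero_apply, zero_add, one_mul, Fin.sum_univ_four]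
    simp
    ring
  rw [e]
  exact h1

theorem adj_td (h : Rep Q A) {k : ℕ} {d : ℝ} {Φ : (Fin k → Ix) → Fld D} (hΦ : IsTd Q k d Φ) :
    ∃ Ψ : (Fin k → Ix) → Fld D, IsTd Q k d Ψ ∧ Adj Φ Ψ := by
  choose Ψ hΨ hadj using fun μ => Q.adj (Φ μ) (hΦ.1 μ)
  refine ⟨Ψ, ⟨hΨ, fun μ s L f v hs hL hf => ?_⟩, fun c f v w hf => ?_⟩
  · refine ext_inner_left ℂ fun w => ?_
    have hw := surj_sim h hs hL w
    set w' := Q.U s⁻¹ (linv L) 0 w with hw'
    have hbf := T.test_bar hf
    have h1 := hadj μ (GF.bar f) w (Q.U s L 0 v) hbf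
    rw [T.bar_bar'] at h1
    rw [← h1, ← hw, hΦ.2 μ s L (GF.bar f) w' hs hL hbf, sum_inner, inner_sum]
    refine Finset.sum_congr rfl fun ν _ => ?_
    rw [inner_smul_left, inner_smul_right, Q.U_inner s L 0 _ _ hs hL,
      Q.U_inner s L 0 _ _ hs hL]
    have h3 := hadj ν (fun x => GF.bar f (sim s L 0 x)) w' v (test_sim hs hL hbf)
    have h5 : GF.bar (fun x => GF.bar f (sim s L 0 x)) = fun x => f (sim s L 0 x) := by
      funext x
      simp [GF.bar]
    rw [h5] at h3
    rw [h3, Complex.conj_ofReal]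
  · unfold T.op
    rw [sum_inner, inner_sum]
    refine Finset.sum_congr rfl fun μ _ => ?_
    rw [inner_smul_left, inner_smul_right, hadj μ f v w hf]

theorem Adj.symm {k : ℕ} {Φ Ψ : (Fin k → Ix) → Fld D} (h : Adj Φ Ψ) : Adj Ψ Φ := by
  intro c f v w hf
  have h1 := h (fun μ => conj (c μ)) (GF.bar f) w v (T.test_bar hf)
  rw [T.bar_bar'] at h1
  simp only [Complex.conj_conj] at h1
  rw [← inner_conj_symm, ← h1, inner_conj_symm]

/-! ### the theorem of Reeh and Schlieder for one-field vectors -/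

theorem rs1 {z : Completion D} {O : Set V} (hO : IsOpen O) (hne : O.Nonempty) {B : Fld D}
    (hB : Q.fld B) (hinv : ∀ f, In O f → (inner ℂ z ((B f Q.vac : D) : Completion D) : ℂ) = 0)
    {g : Fn} (hg : GF.IsTest g) (hgc : HasCompactSupport g) :
    (inner ℂ z ((B g Q.vac : D) : Completion D) : ℂ) = 0 := by
  obtain ⟨x0', hx0'⟩ := hne
  set x0 : Mink := WithLp.toLp 2 x0' with hx0
  have hMO : IsOpen (MW O) := hO.preimage (PiLp.continuous_ofLp 2 _)
  obtain ⟨r, hr, hball⟩ := Metric.isOpen_iff.1 hMO x0 hx0'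
  set ε : ℝ := r / 2 with hε
  have hε0 : 0 < ε := by positivity
  have hsm : ∀ f : 𝓢(Mink, ℂ), IsTest (Metric.ball x0 ε) f → ∀ a : Mink,
      (inner ℂ z ((U1 Q a (B (fl f) Q.vac) : D) : Completion D) : ℂ) = 0 := by
    intro f hf a
    refine (hol_vec (Q := Q) z (B (fl f) Q.vac)).unique
      (O := Metric.ball 0 ε) Metric.isOpen_ball ⟨0, Metric.mem_ball_self hε0⟩ ?_ a
    intro a ha
    have e1 : U1 Q a (B (fl f) Q.vac) = B (fl (tauS a f)) (U1 Q a Q.vac) := U_fld hB f a _
    have e2 : IsTest (MW O) (tauS a f) := by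
      refine hf.tauS a fun x hx => hball ?_
      rw [Metric.mem_ball, dist_eq_norm] at hx ⊢
      rw [Metric.mem_ball, dist_zero_right] at ha
      calc ‖x + a - x0‖ = ‖(x - x0) + a‖ := by congr 1; abel
        _ ≤ ‖x - x0‖ + ‖a‖ := norm_add_le _ _
        _ < ε + ε := add_lt_add hx ha
        _ = r := by rw [hε]; ring
    rw [e1, U1_vac]
    exact hinv _ (In_fl.2 e2)
  obtain ⟨G, rfl⟩ := exists_fl hg
  have hGc : HasCompactSupport G := (In_fl.1 (⟨hg, hgc, Set.subset_univ _⟩ :
    In Set.univ (fl G))).1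
  obtain ⟨U, hU, hKU, hall⟩ := part_induct
    (P := fun f => ∀ a : Mink, (inner ℂ z ((U1 Q a (B (fl f) Q.vac) : D) : Completion D) : ℂ) = 0)
    (K := tsupport G) (by
      intro a
      have h0 : U1 Q a (0 : D) = 0 := by
        have := U1_smul (Q := Q) a 0 (0 : D)
        rwa [zero_smul, zero_smul] at this
      rw [fld_zero hB, h0, Completion.coe_zero, inner_zero_right]) (by
      intro f1 f2 _ _ h1 h2 a
      rw [fld_addf hB, U1_add, Completion.coe_add, inner_add_right, h1 a, h2 a, add_zero]) hGc (by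
      intro x _
      refine ⟨Metric.ball x ε, Metric.isOpen_ball, Metric.mem_ball_self hε0, ?_⟩
      intro f hf a
      have e1 : IsTest (Metric.ball x0 ε) (tauS (x0 - x) f) := by
        refine hf.tauS _ fun y hy => ?_
        rw [Metric.mem_ball, dist_eq_norm] at hy ⊢
        calc ‖y + (x0 - x) - x0‖ = ‖y - x‖ := by congr 1; abel
          _ < ε := hy
      have e2 := hsm _ e1 (a + (x - x0))
      have e3 : B (fl (tauS (x0 - x) f)) Q.vac = U1 Q (x0 - x) (B (fl f) Q.vac) := by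
        have h := U_fld hB f (x0 - x) Q.vac
        have h' : Q.U 1 GF.one (x0 - x).ofLp Q.vac = Q.vac := U1_vac (Q := Q) (x0 - x)
        rw [h'] at h
        exact h.symm
      have e4 : PW Q Set.univ (B (fl f) Q.vac) := .fld hB (isTest_univ hf) .vac
      rw [e3, U1_U1 e4] at e2
      have e5 : a + (x - x0) + (x0 - x) = a := by abel
      rwa [e5] at e2)
  have h1 := hall G ⟨hGc, hKU⟩ 0
  have e4 : PW Q Set.univ (B (fl G) Q.vac) := .fld hB ⟨hGc, Set.subset_univ _⟩ .vac
  rwa [U1_zero e4] at h1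

theorem den (hT : Tot Q) {z : Completion D} (h : ∀ k d Φ μ f, IsTd Q k d Φ → In Fc f →
    (inner ℂ z ((Φ μ f Q.vac : D) : Completion D) : ℂ) = 0) : z = 0 := by
  set S : Submodule ℂ D :=
    { carrier := {v | (inner ℂ z (v : Completion D) : ℂ) = 0}
      add_mem' := fun {x y} hx hy => by
        show (inner ℂ z ((x + y : D) : Completion D) : ℂ) = 0
        rw [Completion.coe_add, inner_add_right]
        rw [show (inner ℂ z (x : Completion D) : ℂ) = 0 from hx,
          show (inner ℂ z (y : Completion D) : ℂ) = 0 from hy, add_zero]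
      zero_mem' := by
        show (inner ℂ z ((0 : D) : Completion D) : ℂ) = 0
        rw [Completion.coe_zero, inner_zero_right]
      smul_mem' := fun c x hx => by
        show (inner ℂ z ((c • x : D) : Completion D) : ℂ) = 0
        rw [Completion.coe_smul, inner_smul_right]
        rw [show (inner ℂ z (x : Completion D) : ℂ) = 0 from hx, mul_zero] } with hS
  have hd : Dense (S : Set D) := hT S fun k d Φ μ f hΦ hf hfc =>
    rs1 Lc.isOpen_fc ⟨bas o 1, by
      refine ⟨?_, ?_⟩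
      · rw [Reg1.md]; simp [bas, o]
      · simp [bas, o]⟩ (hΦ.1 μ) (fun f hf => h k d Φ μ f hΦ hf) hf hfc
  have hall : ∀ v : D, (inner ℂ z (v : Completion D) : ℂ) = 0 := by
    intro v
    have hcl : IsClosed {v : D | (inner ℂ z (v : Completion D) : ℂ) = 0} :=
      isClosed_eq (continuous_const.inner (Completion.continuous_coe D)) continuous_const
    exact closure_minimal (fun v hv => hv) hcl (hd v)
  have hz : (inner ℂ z z : ℂ) = 0 := by
    refine Completion.induction_on (p := fun w => (inner ℂ z w : ℂ) = 0) z ?_ hall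
    exact isClosed_eq (continuous_const.inner continuous_id) continuous_const
  exact inner_self_eq_zero.1 hz

/-! ### the theorem -/

/-- finite sums of continuations -/
theorem ct_sum {H : Type*} [NormedAddCommGroup H] [InnerProductSpace ℂ H] [CompleteSpace H]
    {V : ℝ → H → H} (W : ℝ → (H ≃ₗᵢ[ℂ] H)) (hW : ∀ t z, W t z = V t z) {ι : Type*} [Fintype ι]
    (c : ι → ℂ) {x g : ι → H} (h : ∀ i, H23.Ct V (x i) (g i)) :
    H23.Ct V (∑ i, c i • x i) (∑ i, c i • g i) := by
  choose φ C h1 h2 h3 h4 using fun i => (h i).ex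
  have hs : ∀ t (y : ι → H), V t (∑ i, c i • y i) = ∑ i, c i • V t (y i) := by
    intro t y
    rw [← hW, map_sum]
    exact Finset.sum_congr rfl fun i _ => by rw [map_smul, hW]
  refine ⟨fun z => ∑ i, c i • φ i z, ∑ i, ‖c i‖ * C i, fun y => ?_, fun y => ?_,
    fun z hz hz' => ?_, fun t => ?_⟩
  · have e : (fun z => (inner ℂ y (∑ i, c i • φ i z) : ℂ)) =
        fun z => ∑ i, c i * inner ℂ y (φ i z) := by
      funext z
      rw [inner_sum]
      exact Finset.sum_congr rfl fun i _ => inner_smul_right _ _ _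
    rw [e]
    exact DifferentiableOn.fun_sum fun i _ => (h1 i y).const_mul _
  · have e : (fun z => (inner ℂ y (∑ i, c i • φ i z) : ℂ)) =
        fun z => ∑ i, c i * inner ℂ y (φ i z) := by
      funext z
      rw [inner_sum]
      exact Finset.sum_congr rfl fun i _ => inner_smul_right _ _ _
    rw [e]
    exact continuousOn_finset_sum _ fun i _ => continuousOn_const.mul (h2 i y)
  · refine (norm_sum_le _ _).trans (Finset.sum_le_sum fun i _ => ?_)
    rw [norm_smul]
    exact mul_le_mul_of_nonneg_left (h3 i z hz hz') (norm_nonneg _)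
  · rw [hs, hs]
    exact ⟨Finset.sum_congr rfl fun i _ => by rw [(h4 i t).1],
      Finset.sum_congr rfl fun i _ => by rw [(h4 i t).2]⟩

theorem coe_op {k : ℕ} (Φ : (Fin k → Ix) → Fld D) (c : (Fin k → Ix) → ℂ) (f : Fn) (v : D) :
    ((T.op Φ c f v : D) : Completion D) = ∑ μ, c μ • ((Φ μ f v : D) : Completion D) := by
  have h := map_sum (Completion.toComplₗᵢ : D →ₗᵢ[ℂ] Completion D) (fun μ => c μ • Φ μ f v)
    Finset.univ
  exact h.trans (Finset.sum_congr rfl fun μ _ => Completion.coe_smul _ _)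

theorem phase {d d' : ℝ} {k k' : ℕ} {n : ℤ} (h : d - k - (d' - k') = 2 * n) :
    conj (Complex.exp (Complex.I * Real.pi * d)) * Complex.exp (Complex.I * Real.pi * d') =
      (-1 : ℂ) ^ (k + k') := by
  have hd : (d : ℂ) = 2 * n + k + (d' - k') := by
    have : d = 2 * n + k + (d' - k') := by linarith
    rw [this]
    push_cast
    ring
  rw [← Complex.exp_conj, ← Complex.exp_add]
  have e : conj (Complex.I * Real.pi * d) + Complex.I * Real.pi * d' =
      ((k + k' : ℕ) : ℂ) * (Real.pi * Complex.I) +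
        ((-(n + k) : ℤ) : ℂ) * (2 * Real.pi * Complex.I) := by
    rw [map_mul, map_mul, Complex.conj_I, Complex.conj_ofReal, Complex.conj_ofReal, hd]
    push_cast
    ring
  rw [e, Complex.exp_add, Complex.exp_nat_mul, Complex.exp_pi_mul_I,
    Complex.exp_int_mul_two_pi_mul_I, mul_one]

/-- one-field vectors with their data -/
def Dat (Q : Theory D) (p : Completion D × Completion D × Completion D) : Prop :=
  ∃ (k : ℕ) (d : ℝ) (Φ Ψ : (Fin k → Ix) → Fld D) (c : (Fin k → Ix) → ℂ) (f : Fn),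
    IsTd Q k d Φ ∧ IsTd Q k d Ψ ∧ Adj Φ Ψ ∧ In Fc f ∧
    p.1 = ((T.op Ψ (fun μ => conj (c μ)) (GF.bar f) Q.vac : D) : Completion D) ∧
    p.2.1 = ((T.op Φ c f Q.vac : D) : Completion D) ∧
    p.2.2 = Complex.exp (Complex.I * Real.pi * d) • ((T.op Φ c (L.rf f) Q.vac : D) : Completion D)

/-- **The modular unitaries of the light cone from the two-point functions.** -/
theorem lcE (N : LNm Q A 𝒜) (hO : L.OStmt Q A) (hT : Tot Q) (hR : Orth Q)
    (E : ModData (𝒜 Fc) (om Q)) (t : ℝ) (z : Completion D) : L.dV Q t z = E.U t z := by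
  have R := N.toRep
  have hU : UStmt Q A := ublock R
  have T1' := T.t1 Q A R
  choose W hW using fun t => L.dV_lin hU t
  have hnat : ∀ t, (∀ F z, L.dV Q t (E.Th F z) = E.Th F (L.dV Q t z)) ∧
      ∀ z, L.dV Q t (E.J z) = E.J (L.dV Q t z) := by
    intro t
    have h := T.n _ (om Q) E (W t) (by rw [hW, L.dV_vac hU]) ?_ ?_
    · simp only [hW] at h
      exact h
    · intro X hX
      obtain ⟨Y, hY, h1⟩ := (N.dilF (Real.exp_pos _)).1 X hX
      exact ⟨Y, hY, fun z => by rw [hW, hW]; exact h1 z⟩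
    · intro Y hY
      obtain ⟨X, hX, h1⟩ := (N.dilF (Real.exp_pos _)).2 Y hY
      exact ⟨X, hX, fun z => by rw [hW, hW]; exact h1 z⟩
  refine main (ι := {p // Dat Q p}) E (fun t x y => by rw [← hW, ← hW, (W t).inner_map_map])
    (fun s t x => (L.dV_add hU s t x).symm) (fun t F z => (hnat t).1 F z)
    (fun i => E.J i.1.1) (fun i => i.1.2.1) (fun i => i.1.2.2) ?_ ?_ ?_ ?_ t z
  · intro i
    obtain ⟨k, d, Φ, Ψ, c, f, hΦ, hΨ, hadj, hf, e1, e2, e3⟩ := i.2
    rw [e1, e2]
    exact (T.m _ Q.vac E (T.op Φ c f) (T.op Ψ (fun μ => conj (c μ)) (GF.bar f))).1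
      (T.afs_of (fun v w => hadj c f v w hf.1)
        (T.H732W.aff_sum (fun μ => N.fld _ _ f (hΦ.1 μ) hf) c))
  · intro i
    obtain ⟨k, d, Φ, Ψ, c, f, hΦ, hΨ, hadj, hf, e1, e2, e3⟩ := i.2
    have h1 : ∀ μ, H23.Ct (L.dV Q) ((Φ μ f Q.vac : D) : Completion D)
        (Complex.exp (Complex.I * Real.pi * d) • ((Φ μ (L.rf f) Q.vac : D) : Completion D)) := by
      intro μ
      obtain ⟨G, g1, g2, g3, g4⟩ := (hO R d (Φ μ) f (fz_td hΦ μ)).1 hf
      exact T.ct_of g1 g2 g3 fun t => by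
        rw [L.dV_coe hU, ← L.dD_smul hU]
        exact g4 t
    have h2 := ct_sum W hW c h1
    rw [e2, e3, coe_op, coe_op, Finset.smul_sum]
    simpa only [smul_comm (Complex.exp (Complex.I * Real.pi * d))] using h2
  · intro i j
    obtain ⟨k, d, Φ, Ψ, c, f, hΦ, hΨ, hadj, hf, e1, e2, e3⟩ := i.2
    obtain ⟨k', d', Φ', Ψ', c', f', hΦ', hΨ', hadj', hf', e1', e2', e3'⟩ := j.2
    have hp := pct N (ten_td hΦ) (ten_td hΨ) hadj c hf.1 hf.2.1 (ten_td hΦ') (ten_td hΨ') hadj' c'
      hf'.1 hf'.2.1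
    rw [E.inner_J_J, e1, e1', e3, e3', Completion.inner_coe, ← hp, inner_smul_left, inner_smul_right,
      Completion.inner_coe, ← mul_assoc]
    by_cases hn : ∃ n : ℤ, d - k - (d' - k') = 2 * n
    · obtain ⟨n, hn⟩ := hn
      rw [phase hn]
    · have h0 : (inner ℂ (T.op Φ c (L.rf f) Q.vac) (T.op Φ' c' (L.rf f') Q.vac) : ℂ) = 0 := by
        unfold T.op
        rw [sum_inner]
        refine Finset.sum_eq_zero fun μ _ => ?_
        rw [inner_sum]
        refine Finset.sum_eq_zero fun μ' _ => ?_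
        rw [inner_smul_left, inner_smul_right, hR k d Φ μ _ k' d' Φ' μ' _ hΦ hΦ'
          (test_rf hf.1) (test_rf hf'.1) fun n hn' => hn ⟨n, hn'⟩, mul_zero, mul_zero]
      rw [h0, mul_zero, mul_zero]
  · rw [Submodule.dense_iff_topologicalClosure_eq_top, Submodule.topologicalClosure_eq_top_iff,
      Submodule.eq_bot_iff]
    intro y hy
    have h1 : ∀ p, Dat Q p → (inner ℂ (E.J y) p.1 : ℂ) = 0 := by
      intro p hp
      have h2 := (Submodule.mem_orthogonal _ _).1 hy (E.J p.1)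
        (Submodule.subset_span ⟨⟨p, hp⟩, rfl⟩)
      rwa [← E.J_J y, E.inner_J_J] at h2
    have h3 : E.J y = 0 := by
      refine den hT fun k d Ψ μ f hΨ hf => ?_
      obtain ⟨Φ, hΦ, hadj⟩ := adj_td R hΨ
      have h4 := h1 (_, _, _) ⟨k, d, Φ, Ψ, fun ν => if ν = μ then 1 else 0, GF.bar f, hΦ, hΨ,
        hadj.symm, T1'.ib _ _ hf, rfl, rfl, rfl⟩
      have e : T.op Ψ (fun ν => conj (if ν = μ then (1 : ℂ) else 0)) (GF.bar (GF.bar f)) Q.vac =
          Ψ μ f Q.vac := by
        rw [T.bar_bar']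
        simp [T.op, apply_ite conj]
      rw [← e]
      exact h4
    rw [← E.J_J y, h3, map_zero]

/-- **The theorem of Bisognano and Wichmann for the light cone.** -/
theorem lc (N : LNm Q A 𝒜) (hs : ∀ X ∈ 𝒜 Fc, X (om Q) = 0 → X = 0) (hT : Tot Q) (hR : Orth Q) :
    ∃ J : Completion D → Completion D, IsMod (𝒜 Fc) (om Q)
      (fun t z => Ue Q (Real.exp (-(2 * Real.pi * t))) GF.one 0 z) J := by
  obtain ⟨E⟩ : Nonempty (ModData (𝒜 Fc) (om Q)) := by
    refine exists_modData _ _ (H732G.norm_om Q) ?_ hs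
    refine N.cyc Lc.isOpen_fc ⟨bas o 1, ?_, ?_⟩
    · rw [Reg1.md]; simp [bas, o]
    · simp [bas, o]
  refine ⟨fun z => E.J z, ?_⟩
  have h := isMod E
  have e : (fun (t : ℝ) (z : Completion D) => E.U t z) =
      fun t z => Ue Q (Real.exp (-(2 * Real.pi * t))) GF.one 0 z := by
    funext t z
    exact (lcE N L.o hT hR E t z).symm
  rwa [e] at h

end Vale.Agent.P352.BW.H49

end
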