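import Vale.Agent.P352.BW.H48.ModU
import Vale.Agent.P352.BW.H23.S
import Mathlib.Analysis.Normed.Operator.Extend

/-!
# P352 BW: a unitary group with the imaginary time values of the modular group (helper49)

`V t` is a unitary group which commutes with the modular operator of `E`. For vectors `k`, `x`, `g`
with `Δ^{1/2} x = k` such that `V t x` continues to `-1/2 ≤ Im z ≤ 0` with the value `V t g` at
`t - i/2`: if the vectors `k` are total and `k ↦ g` preserves inner products, then `V t = Δ^{it}`.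
-/

open Filter Topology Set
open scoped BoundedContinuousFunction
open Vale.Agent.P132 (ModData expB)

set_option linter.all false

namespace Vale.Agent.P352.BW.H49

open H48

noncomputable section

variable {H : Type*} [NormedAddCommGroup H] [InnerProductSpace ℂ H] [CompleteSpace H]
  {M : VonNeumannAlgebra H} {ξ : H} {V : ℝ → H → H}

theorem Wg_Th' (E : ModData M ξ) (hth : ∀ t F z, V t (E.Th F z) = E.Th F (V t z)) (t : ℝ)
    (F : ℝ →ᵇ ℂ) (x : H) : Wg E V t (E.Th F x) = E.Th F (Wg E V t x) := by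
  have h1 : E.U (-t) * E.Th F = E.Th F * E.U (-t) := by
    show E.Th (expB (-t)) * E.Th F = E.Th F * E.Th (expB (-t))
    rw [← map_mul, ← map_mul, mul_comm]
  show E.U (-t) (V t (E.Th F x)) = E.Th F (E.U (-t) (V t x))
  rw [hth]
  exact congrArg (fun A : H →L[ℂ] H => A (V t x)) h1

/-- the continuation of the matrix coefficients -/
theorem pr_of (E : ModData M ξ) (hth : ∀ t F z, V t (E.Th F z) = E.Th F (V t z)) {k x g : H}
    (hm : ∀ F G : ℝ →ᵇ ℂ, (∀ h : ℝ, F h = Real.exp (h / 2) * G h) → E.Th G k = E.Th F x)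
    (hc : H23.Ct V x g) {T : H → H} (hT : T k = g) (χ : ℝ →ᵇ ℂ) (hχ : HasCompactSupport χ)
    (y₀ : H) : ∃ F, Pr (Wg E V) T (E.Th χ y₀) k F := by
  obtain ⟨φ, C, hd, hcont, hb, hv⟩ := hc.ex
  have hC0 : 0 ≤ C := (norm_nonneg _).trans (hb 0 (by simp) (by simp))
  have hle : ∀ y (z : ℂ), -(1 / 2) ≤ z.im → z.im ≤ 0 → ‖(inner ℂ y (φ z) : ℂ)‖ ≤ C * ‖y‖ := by
    intro y z hz hz'
    refine (norm_inner_le_norm _ _).trans ?_
    rw [mul_comm]
    exact mul_le_mul_of_nonneg_right (hb z hz hz') (norm_nonneg _)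
  refine ⟨fun z => inner ℂ (ev E χ hχ y₀ ((starRingEnd ℂ) z)) (φ z),
    prod (F := fun y z => inner ℂ y (φ z)) (C := C) (fun y => ⟨hd y, (hcont y).mono ?_⟩) hle
      (fun y y' z _ _ => inner_add_left _ _ _) (fun c y z _ _ => inner_smul_left _ _ _)
      (ev_diff E χ hχ y₀), ?_, fun t => ?_, fun t => ?_⟩
  · intro z hz
    exact (mem_cl (by norm_num)).1 hz
  · obtain ⟨C', hC'⟩ := ev_bd E χ hχ y₀
    refine ⟨C * C', fun z hz hz' => ?_⟩
    exact (hle _ z hz hz').trans (mul_le_mul_of_nonneg_left (hC' z hz hz') hC0)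
  · show inner ℂ (ev E χ hχ y₀ ((starRingEnd ℂ) (t : ℂ))) (φ t) = _
    rw [Complex.conj_ofReal, ev_re, (hv t).1, inner_U_V, Th_adj, ← Wg_Th' E hth]
    have h1 : E.Th (star χ) k = E.Th (star (ez χ hχ (1 / 2))) x := by
      refine hm _ _ fun u => ?_
      show (starRingEnd ℂ) (ez χ hχ (1 / 2) u) = Real.exp (u / 2) * (starRingEnd ℂ) (χ u)
      rw [b_ez, map_mul, ← Complex.exp_conj]
      congr 1
      rw [Complex.ofReal_exp]
      congr 1
      have h3 : (starRingEnd ℂ) (1 / 2 : ℂ) = 1 / 2 := by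
        rw [map_div₀, map_one, map_ofNat]
      rw [map_mul, h3, Complex.conj_ofReal]
      push_cast
      ring
    rw [← h1, Wg_Th' E hth, ← Th_adj]
  · have h2 : (starRingEnd ℂ) ((t : ℂ) - Complex.I / 2) = t + Complex.I / 2 := by
      rw [map_sub, Complex.conj_ofReal, map_div₀, Complex.conj_I, map_ofNat]
      ring
    show inner ℂ (ev E χ hχ y₀ ((starRingEnd ℂ) ((t : ℂ) - Complex.I / 2))) (φ _) = _
    rw [h2, ev_lo, (hv _).2, inner_U_V, hT]

theorem denseY (E : ModData M ξ) :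
    Dense {y : H | ∃ χ : ℝ →ᵇ ℂ, HasCompactSupport χ ∧ ∃ y₀, E.Th χ y₀ = y} := by
  intro ζ
  rw [Metric.mem_closure_iff]
  intro ε hε
  obtain ⟨F, hF, -, hF'⟩ := E.Th_nondeg ζ ε hε
  exact ⟨_, ⟨F, hF, ζ, rfl⟩, by rwa [dist_comm, dist_eq_norm]⟩

section

variable {W : ℝ → H → H} {T : H → H}

theorem pr_add (hW : ∀ t x y, W t (x + y) = W t x + W t y) (hT : ∀ x y, T (x + y) = T x + T y)
    {y k k' : H} {F F' : ℂ → ℂ} (h1 : Pr W T y k F) (h2 : Pr W T y k' F') :
    Pr W T y (k + k') (fun z => F z + F' z) where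
  dc := h1.dc.add h2.dc
  bd := h1.bd.add h2.bd
  re t := by rw [h1.re, h2.re, hW, inner_add_right]
  lo t := by rw [h1.lo, h2.lo, hT, hW, inner_add_right]

theorem pr_smul (hW : ∀ t (c : ℂ) x, W t (c • x) = c • W t x)
    (hT : ∀ (c : ℂ) x, T (c • x) = c • T x)
    {y k : H} {F : ℂ → ℂ} (c : ℂ) (h1 : Pr W T y k F) :
    Pr W T y (c • k) (fun z => c • F z) where
  dc := h1.dc.const_smul c
  bd := by
    obtain ⟨C, hC⟩ := h1.bd
    refine ⟨‖c‖ * C, fun z hz hz' => ?_⟩
    rw [norm_smul]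
    exact mul_le_mul_of_nonneg_left (hC z hz hz') (norm_nonneg _)
  re t := by rw [h1.re, hW, inner_smul_right, smul_eq_mul]
  lo t := by rw [h1.lo, hT, hW, inner_smul_right, smul_eq_mul]

end

/-- **A unitary group with the imaginary time values of the modular group on a total set.** -/
theorem main {ι : Type*} (E : ModData M ξ)
    (inn : ∀ t x y, inner ℂ (V t x) (V t y) = inner ℂ x y)
    (add : ∀ s t x, V (s + t) x = V s (V t x))
    (hth : ∀ t F z, V t (E.Th F z) = E.Th F (V t z)) (k x g : ι → H)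
    (hm : ∀ i, ∀ F G : ℝ →ᵇ ℂ, (∀ h : ℝ, F h = Real.exp (h / 2) * G h) →
      E.Th G (k i) = E.Th F (x i))
    (hc : ∀ i, H23.Ct V (x i) (g i)) (hg : ∀ i j, inner ℂ (g i) (g j) = inner ℂ (k i) (k j))
    (hd : Dense (Submodule.span ℂ (Set.range k) : Set H)) (t : ℝ) (z : H) : V t z = E.U t z := by
  set lk : (ι →₀ ℂ) →ₗ[ℂ] H := Finsupp.linearCombination ℂ k with hlk
  set lg : (ι →₀ ℂ) →ₗ[ℂ] H := Finsupp.linearCombination ℂ g with hlg
  have hinner : ∀ c c', inner ℂ (lg c) (lg c') = inner ℂ (lk c) (lk c') := by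
    intro c c'
    simp only [hlk, hlg, Finsupp.linearCombination_apply, Finsupp.sum_inner, Finsupp.inner_sum,
      inner_smul_left, inner_smul_right, hg]
  have hnorm : ∀ c, ‖lg c‖ = ‖lk c‖ := by
    intro c
    have h1 : ‖lg c‖ ^ 2 = ‖lk c‖ ^ 2 := by
      rw [← inner_self_eq_norm_sq (𝕜 := ℂ), ← inner_self_eq_norm_sq (𝕜 := ℂ), hinner]
    exact (sq_eq_sq₀ (norm_nonneg _) (norm_nonneg _)).1 h1
  have hdr : DenseRange lk := by
    have h1 : Set.range lk = (Submodule.span ℂ (Set.range k) : Set H) := by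
      rw [hlk, ← LinearMap.coe_range, Finsupp.range_linearCombination]
    rw [DenseRange, h1]
    exact hd
  set T : H →L[ℂ] H := lg.extendOfNorm lk with hT
  have hTe : ∀ c, T (lk c) = lg c := fun c =>
    LinearMap.extendOfNorm_eq hdr ⟨1, fun c => by rw [one_mul]; exact (hnorm c).le⟩ c
  have hTk : ∀ i, T (k i) = g i := by
    intro i
    have h1 := hTe (Finsupp.single i 1)
    simpa [hlk, hlg] using h1
  have htin : ∀ x y, inner ℂ (T x) (T y) = inner ℂ x y := by
    intro x y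
    refine hdr.induction_on₂ (p := fun x y => (inner ℂ (T x) (T y) : ℂ) = inner ℂ x y) ?_ ?_ x y
    · exact isClosed_eq ((T.continuous.comp continuous_fst).inner (T.continuous.comp continuous_snd))
        (continuous_fst.inner continuous_snd)
    · intro c c'
      rw [hTe, hTe, hinner]
  have hV : Hy V id := ⟨inn, add, fun _ _ => rfl⟩
  have hlin : ∀ t, (∀ x y, V t (x + y) = V t x + V t y) ∧ ∀ (c : ℂ) x, V t (c • x) = c • V t x :=
    fun t => lin_of_inn (inn t) fun x => ⟨V (-t) x, by rw [← add, add_neg_cancel, hV.zero]⟩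
  have hW : Hy (Wg E V) (fun x => T x) := by
    refine ⟨fun t x y => ?_, fun s t x => ?_, fun x y => htin x y⟩
    · show inner ℂ (E.U (-t) (V t x)) (E.U (-t) (V t y)) = _
      rw [E.inner_U_U, inn]
    · show E.U (-(s + t)) (V (s + t) x) = E.U (-s) (V s (E.U (-t) (V t x)))
      have h1 : V s (E.U (-t) (V t x)) = E.U (-t) (V s (V t x)) := hth s _ _
      rw [h1, neg_add, E.U_add_apply, add]
  have hWa : ∀ t x y, Wg E V t (x + y) = Wg E V t x + Wg E V t y := fun t x y => by
    show E.U (-t) (V t (x + y)) = E.U (-t) (V t x) + E.U (-t) (V t y)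
    rw [(hlin t).1, map_add]
  have hWs : ∀ t (c : ℂ) x, Wg E V t (c • x) = c • Wg E V t x := fun t c x => by
    show E.U (-t) (V t (c • x)) = c • E.U (-t) (V t x)
    rw [(hlin t).2, map_smul]
  have htriv := triv hW hdr (denseY E) ?_ t z
  · have h1 : E.U t (E.U (-t) (V t z)) = E.U t z := congrArg (E.U t) htriv
    rwa [E.U_apply_neg] at h1
  · rintro _ ⟨c, rfl⟩ _ ⟨χ, hχ, y₀, rfl⟩
    induction c using Finsupp.induction_linear with
    | zero =>
      rw [map_zero]
      refine ⟨fun _ => 0, diffContOnCl_const, ⟨0, fun _ _ _ => by simp⟩, fun t => ?_, fun t => ?_⟩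
      · have h1 := hWs t 0 0
        rw [zero_smul, zero_smul] at h1
        rw [h1, inner_zero_right]
      · have h1 := hWs t 0 0
        rw [zero_smul, zero_smul] at h1
        rw [map_zero, h1, inner_zero_right]
    | add c c' h1 h2 =>
      obtain ⟨F, hF⟩ := h1
      obtain ⟨F', hF'⟩ := h2
      rw [map_add]
      exact ⟨_, pr_add hWa (fun x y => map_add T x y) hF hF'⟩
    | single i a =>
      obtain ⟨F, hF⟩ := pr_of E hth (hm i) (hc i) (T := fun x => T x) (hTk i) χ hχ y₀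
      have h1 : lk (Finsupp.single i a) = a • k i := by simp [hlk]
      rw [h1]
      exact ⟨_, pr_smul hWs (fun c x => map_smul T c x) a hF⟩

end

end Vale.Agent.P352.BW.H49
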