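import Vale.Agent.P352.BW.H49.OrDefs

namespace Vale.Agent.P352.BW

open GF

noncomputable section

variable {D : Type*} [NormedAddCommGroup D] [InnerProductSpace ℂ D]

/-- The vacuum `Ω` and the vectors `Φ Ω`, `Φ` a tensor field with a scaling dimension, are
total. -/
def Tot1 (Q : Theory D) : Prop := ∀ S : Submodule ℂ D, Q.vac ∈ S → (∀ k d Φ μ f, IsTd Q k d Φ →
  IsTest f → HasCompactSupport f → Φ μ f Q.vac ∈ S) → Dense (S : Set D)

end

end Vale.Agent.P352.BW
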