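import Vale.Agent.P352.BW.H49.Or
import Vale.Agent.P352.BW.H49.Or1Defs

/-!
# P352 BW: the modular unitaries of the light cone, from the two-point functions, with the vacuum
(helper49)
-/

set_option linter.all false

noncomputable section

open MeasureTheory SchwartzMap Filter Topology
open scoped SchwartzMap ComplexConjugate InnerProductSpace BoundedContinuousFunction

namespace Vale.Agent.P352.BW.H49

open Vale.Agent.P132 (ModData expB exists_modData)
open UniformSpace (Completion)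
open GF H246 H496 H755 H15

/-- the continuation is orthogonal to the vacuum as the vector is -/
theorem vac_ct {H : Type*} [NormedAddCommGroup H] [InnerProductSpace ℂ H] {V : ℝ → H → H}
    {ξ x g : H} (inn : ∀ t x y, inner ℂ (V t x) (V t y) = inner ℂ x y) (hξ : ∀ t, V t ξ = ξ)
    [CompleteSpace H] (hc : H23.Ct V x g) : (inner ℂ ξ g : ℂ) = inner ℂ ξ x := by
  obtain ⟨φ, C, hd, hcont, hb, hv⟩ := hc.ex
  have h0 : ∀ t z, (inner ℂ ξ (V t z) : ℂ) = inner ℂ ξ z := fun t z => by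
    have := inn t ξ z
    rwa [hξ] at this
  have hB : H48.Bd (1 / 2) (fun z => (inner ℂ ξ (φ z) : ℂ)) := ⟨‖ξ‖ * C, fun z hz hz' =>
    (norm_inner_le_norm _ _).trans (mul_le_mul_of_nonneg_left (hb z hz hz') (norm_nonneg _))⟩
  have h1 := H48.uniq (a := 1 / 2) (by norm_num) (f := fun z => (inner ℂ ξ (φ z) : ℂ))
    ⟨hd ξ, (hcont ξ).mono fun z hz => (H48.mem_cl (by norm_num)).1 hz⟩
    (g := fun _ => (inner ℂ ξ x : ℂ)) diffContOnCl_const hB ⟨_, fun _ _ _ => le_rfl⟩
    (fun t => by rw [(hv t).1, h0]) (z := ((0 : ℝ) : ℂ) - Complex.I / 2) (by simp) (by simp)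
  rwa [(hv 0).2, h0] at h1

variable {D : Type*} [NormedAddCommGroup D] [InnerProductSpace ℂ D] {Q : Theory D}
  {A : (V → V) → D → D} {𝒜 : Set V → VonNeumannAlgebra (Completion D)}

theorem den1 (hT : Tot1 Q) {z : Completion D} (h0 : (inner ℂ z (om Q) : ℂ) = 0)
    (h : ∀ k d Φ μ f, IsTd Q k d Φ → In Fc f →
      (inner ℂ z ((Φ μ f Q.vac : D) : Completion D) : ℂ) = 0) : z = 0 := by
  set S : Submodule ℂ D :=
    { carrier := {v | (inner ℂ z (v : Completion D) : ℂ) = 0}
      add_mem' := fun {x y} hx hy => by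
        show (inner ℂ z ((x + y : D) : Completion D) : ℂ) = 0
        rw [Completion.coe_add, inner_add_right]
        rw [show (inner ℂ z (x : Completion D) : ℂ) = 0 from hx,
          show (inner ℂ z (y : Completion D) : ℂ) = 0 from hy, add_zero]
      zero_mem' := by
        show (inner ℂ z ((0 : D) : Completion D) : ℂ) = 0
        rw [Completion.coe_zero, inner_zero_right]
      smul_mem' := fun c x hx => by
        show (inner ℂ z ((c • x : D) : Completion D) : ℂ) = 0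
        rw [Completion.coe_smul, inner_smul_right]
        rw [show (inner ℂ z (x : Completion D) : ℂ) = 0 from hx, mul_zero] } with hS
  have hd : Dense (S : Set D) := hT S h0 fun k d Φ μ f hΦ hf hfc =>
    rs1 Lc.isOpen_fc ⟨bas o 1, by
      refine ⟨?_, ?_⟩
      · rw [Reg1.md]; simp [bas, o]
      · simp [bas, o]⟩ (hΦ.1 μ) (fun f hf => h k d Φ μ f hΦ hf) hf hfc
  have hall : ∀ v : D, (inner ℂ z (v : Completion D) : ℂ) = 0 := by
    intro v
    have hcl : IsClosed {v : D | (inner ℂ z (v : Completion D) : ℂ) = 0} :=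
      isClosed_eq (continuous_const.inner (Completion.continuous_coe D)) continuous_const
    exact closure_minimal (fun v hv => hv) hcl (hd v)
  have hz : (inner ℂ z z : ℂ) = 0 := by
    refine Completion.induction_on (p := fun w => (inner ℂ z w : ℂ) = 0) z ?_ hall
    exact isClosed_eq (continuous_const.inner continuous_id) continuous_const
  exact inner_self_eq_zero.1 hz

/-- the dilations commute with the modular objects of the light cone -/
theorem nat_dV (N : LNm Q A 𝒜) (E : ModData (𝒜 Fc) (om Q)) (t : ℝ) :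
    (∀ F z, L.dV Q t (E.Th F z) = E.Th F (L.dV Q t z)) ∧
      ∀ z, L.dV Q t (E.J z) = E.J (L.dV Q t z) := by
  have hU : UStmt Q A := ublock N.toRep
  obtain ⟨W, hW⟩ := L.dV_lin hU t
  have h := T.n _ (om Q) E W (by rw [hW, L.dV_vac hU]) ?_ ?_
  · simp only [hW] at h
    exact h
  · intro X hX
    obtain ⟨Y, hY, h1⟩ := (N.dilF (Real.exp_pos _)).1 X hX
    exact ⟨Y, hY, fun z => by rw [hW, hW]; exact h1 z⟩
  · intro Y hY
    obtain ⟨X, hX, h1⟩ := (N.dilF (Real.exp_pos _)).2 Y hY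
    exact ⟨X, hX, fun z => by rw [hW, hW]; exact h1 z⟩

/-- the continuation of the dilations on one-field vectors -/
theorem ct_dV (R : Rep Q A) (hO : L.OStmt Q A) {k : ℕ} {d : ℝ} {Φ : (Fin k → Ix) → Fld D}
    (hΦ : IsTd Q k d Φ) (c : (Fin k → Ix) → ℂ) {f : Fn} (hf : In Fc f) :
    H23.Ct (L.dV Q) ((T.op Φ c f Q.vac : D) : Completion D)
      (Complex.exp (Complex.I * Real.pi * d) • ((T.op Φ c (L.rf f) Q.vac : D) : Completion D)) := by
  have hU : UStmt Q A := ublock R
  choose W hW using fun t => L.dV_lin hU t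
  have h1 : ∀ μ, H23.Ct (L.dV Q) ((Φ μ f Q.vac : D) : Completion D)
      (Complex.exp (Complex.I * Real.pi * d) • ((Φ μ (L.rf f) Q.vac : D) : Completion D)) := by
    intro μ
    obtain ⟨G, g1, g2, g3, g4⟩ := (hO R d (Φ μ) f (fz_td hΦ μ)).1 hf
    exact T.ct_of g1 g2 g3 fun t => by
      rw [L.dV_coe hU, ← L.dD_smul hU]
      exact g4 t
  have h2 := ct_sum W hW c h1
  rw [coe_op, coe_op, Finset.smul_sum]
  simpa only [smul_comm (Complex.exp (Complex.I * Real.pi * d))] using h2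

/-- `Δ^{1/2} x = J x*` on one-field vectors -/
theorem md_dV (N : LNm Q A 𝒜) (E : ModData (𝒜 Fc) (om Q)) {k : ℕ} {d : ℝ}
    {Φ Ψ : (Fin k → Ix) → Fld D} (hΦ : IsTd Q k d Φ) (hadj : Adj Φ Ψ) (c : (Fin k → Ix) → ℂ)
    {f : Fn} (hf : In Fc f) : ∀ F G : ℝ →ᵇ ℂ, (∀ h : ℝ, F h = Real.exp (h / 2) * G h) →
      E.Th G (E.J ((T.op Ψ (fun μ => conj (c μ)) (GF.bar f) Q.vac : D) : Completion D)) =
        E.Th F ((T.op Φ c f Q.vac : D) : Completion D) :=
  (T.m _ Q.vac E (T.op Φ c f) (T.op Ψ (fun μ => conj (c μ)) (GF.bar f))).1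
    (T.afs_of (fun v w => hadj c f v w hf.1)
      (T.H732W.aff_sum (fun μ => N.fld _ _ f (hΦ.1 μ) hf) c))

/-- the vacuum and the one-field vectors with their data -/
def Dat1 (Q : Theory D) (p : Completion D × Completion D × Completion D) : Prop :=
  p = (om Q, om Q, om Q) ∨ Dat Q p

/-- **The modular unitaries of the light cone from the two-point functions.** -/
theorem lcE1 (N : LNm Q A 𝒜) (hT : Tot1 Q) (hR : Orth Q) (E : ModData (𝒜 Fc) (om Q)) (t : ℝ)
    (z : Completion D) : L.dV Q t z = E.U t z := by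
  have R := N.toRep
  have hU : UStmt Q A := ublock R
  have T1' := T.t1 Q A R
  choose W hW using fun t => L.dV_lin hU t
  have inn : ∀ t x y, inner ℂ (L.dV Q t x) (L.dV Q t y) = inner ℂ x y := fun t x y => by
    rw [← hW, ← hW, (W t).inner_map_map]
  -- the continuations
  have hct : ∀ p, Dat1 Q p → H23.Ct (L.dV Q) p.2.1 p.2.2 := by
    rintro p (rfl | ⟨k, d, Φ, Ψ, c, f, hΦ, hΨ, hadj, hf, e1, e2, e3⟩)
    · refine ⟨fun _ => om Q, ‖om Q‖, fun y => differentiableOn_const _, fun y => continuousOn_const,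
        fun _ _ _ => le_rfl, fun t => ⟨(L.dV_vac hU t).symm, (L.dV_vac hU t).symm⟩⟩
    · rw [e2, e3]
      exact ct_dV R L.o hΦ c hf
  -- the vacuum
  have hvk : ∀ p, Dat1 Q p → (inner ℂ (om Q) (E.J p.1) : ℂ) = inner ℂ (om Q) p.2.1 := by
    rintro p (rfl | ⟨k, d, Φ, Ψ, c, f, hΦ, hΨ, hadj, hf, e1, e2, e3⟩)
    · rw [E.J_xi]
    · rw [e1, e2]
      have h1 := E.inner_J_J (om Q)
        ((T.op Ψ (fun μ => conj (c μ)) (GF.bar f) Q.vac : D) : Completion D)
      rw [E.J_xi] at h1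
      rw [h1, om, Completion.inner_coe, Completion.inner_coe, ← inner_conj_symm,
        ← hadj c f Q.vac Q.vac hf.1, inner_conj_symm]
  have hvg : ∀ p, Dat1 Q p → (inner ℂ (om Q) p.2.2 : ℂ) = inner ℂ (om Q) (E.J p.1) := by
    intro p hp
    rw [hvk p hp]
    exact vac_ct inn (L.dV_vac hU) (hct p hp)
  refine main (ι := {p // Dat1 Q p}) E inn
    (fun s t x => (L.dV_add hU s t x).symm) (fun t F z => (nat_dV N E t).1 F z)
    (fun i => E.J i.1.1) (fun i => i.1.2.1) (fun i => i.1.2.2) ?_ (fun i => hct i.1 i.2) ?_ ?_ t z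
  · intro i
    rcases i.2 with e | ⟨k, d, Φ, Ψ, c, f, hΦ, hΨ, hadj, hf, e1, e2, e3⟩
    · rw [e]
      intro F G hFG
      show E.Th G (E.J (om Q)) = E.Th F (om Q)
      rw [E.J_xi, E.Th_xi, E.Th_xi, hFG 0]
      simp
    · rw [e1, e2]
      exact md_dV N E hΦ hadj c hf
  · intro i j
    rcases i.2 with e | hi
    · have h1 := hvg j.1 j.2
      rw [e]
      show (inner ℂ (om Q) j.1.2.2 : ℂ) = inner ℂ (E.J (om Q)) (E.J j.1.1)
      rw [E.J_xi, h1]
    rcases j.2 with e | hj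
    · have h1 := congrArg conj (hvg i.1 i.2)
      rw [inner_conj_symm, inner_conj_symm] at h1
      rw [e]
      show (inner ℂ i.1.2.2 (om Q) : ℂ) = inner ℂ (E.J i.1.1) (E.J (om Q))
      rw [E.J_xi, h1]
    obtain ⟨k, d, Φ, Ψ, c, f, hΦ, hΨ, hadj, hf, e1, e2, e3⟩ := hi
    obtain ⟨k', d', Φ', Ψ', c', f', hΦ', hΨ', hadj', hf', e1', e2', e3'⟩ := hj
    have hp := pct N (ten_td hΦ) (ten_td hΨ) hadj c hf.1 hf.2.1 (ten_td hΦ') (ten_td hΨ') hadj' c'
      hf'.1 hf'.2.1
    rw [E.inner_J_J, e1, e1', e3, e3', Completion.inner_coe, ← hp, inner_smul_left,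
      inner_smul_right, Completion.inner_coe, ← mul_assoc]
    by_cases hn : ∃ n : ℤ, d - k - (d' - k') = 2 * n
    · obtain ⟨n, hn⟩ := hn
      rw [phase hn]
    · have h0 : (inner ℂ (T.op Φ c (L.rf f) Q.vac) (T.op Φ' c' (L.rf f') Q.vac) : ℂ) = 0 := by
        unfold T.op
        rw [sum_inner]
        refine Finset.sum_eq_zero fun μ _ => ?_
        rw [inner_sum]
        refine Finset.sum_eq_zero fun μ' _ => ?_
        rw [inner_smul_left, inner_smul_right, hR k d Φ μ _ k' d' Φ' μ' _ hΦ hΦ'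
          (test_rf hf.1) (test_rf hf'.1) fun n hn' => hn ⟨n, hn'⟩, mul_zero, mul_zero]
      rw [h0, mul_zero, mul_zero]
  · rw [Submodule.dense_iff_topologicalClosure_eq_top, Submodule.topologicalClosure_eq_top_iff,
      Submodule.eq_bot_iff]
    intro y hy
    have h1 : ∀ p, Dat1 Q p → (inner ℂ (E.J y) p.1 : ℂ) = 0 := by
      intro p hp
      have h2 := (Submodule.mem_orthogonal _ _).1 hy (E.J p.1)
        (Submodule.subset_span ⟨⟨p, hp⟩, rfl⟩)
      rwa [← E.J_J y, E.inner_J_J] at h2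
    have h3 : E.J y = 0 := by
      refine den1 hT (h1 _ (Or.inl rfl)) fun k d Ψ μ f hΨ hf => ?_
      obtain ⟨Φ, hΦ, hadj⟩ := adj_td R hΨ
      have h4 := h1 (_, _, _) (Or.inr ⟨k, d, Φ, Ψ, fun ν => if ν = μ then 1 else 0, GF.bar f, hΦ,
        hΨ, hadj.symm, T1'.ib _ _ hf, rfl, rfl, rfl⟩)
      have e : T.op Ψ (fun ν => conj (if ν = μ then (1 : ℂ) else 0)) (GF.bar (GF.bar f)) Q.vac =
          Ψ μ f Q.vac := by
        rw [T.bar_bar']
        simp [T.op, apply_ite conj]
      rw [← e]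
      exact h4
    rw [← E.J_J y, h3, map_zero]

/-- **The theorem of Bisognano and Wichmann for the light cone.** -/
theorem lc1 (N : LNm Q A 𝒜) (hs : ∀ X ∈ 𝒜 Fc, X (om Q) = 0 → X = 0) (hT : Tot1 Q)
    (hR : Orth Q) : ∃ J : Completion D → Completion D, IsMod (𝒜 Fc) (om Q)
      (fun t z => Ue Q (Real.exp (-(2 * Real.pi * t))) GF.one 0 z) J := by
  obtain ⟨E⟩ : Nonempty (ModData (𝒜 Fc) (om Q)) := by
    refine exists_modData _ _ (H732G.norm_om Q) ?_ hs
    refine N.cyc Lc.isOpen_fc ⟨bas o 1, ?_, ?_⟩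
    · rw [Reg1.md]; simp [bas, o]
    · simp [bas, o]
  refine ⟨fun z => E.J z, ?_⟩
  have h := isMod E
  have e : (fun (t : ℝ) (z : Completion D) => E.U t z) =
      fun t z => Ue Q (Real.exp (-(2 * Real.pi * t))) GF.one 0 z := by
    funext t z
    exact (lcE1 N hT hR E t z).symm
  rwa [e] at h

end Vale.Agent.P352.BW.H49

end
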