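import Vale.Agent.P352.BW.H49.Ab
import Vale.Agent.P352.BW.H649.Lc
import Vale.Agent.P352.H48.Reg1
import Vale.Agent.P352.BW.L.Spec

/-!
# P352 BW: the theorem PCT for the two-point functions (helper49)
-/

set_option linter.all false

noncomputable section

open MeasureTheory Filter Topology
open scoped ComplexConjugate InnerProductSpace BoundedContinuousFunction

namespace Vale.Agent.P352.BW.H49

open Vale.Agent.P132 (ModData expB)
open UniformSpace (Completion)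
open GF H246 H496 H755 H15 H48

/-- the value of the continuation at `-i/2` -/
theorem val_eq {H : Type*} [NormedAddCommGroup H] [InnerProductSpace ℂ H] [CompleteSpace H]
    {M : VonNeumannAlgebra H} {ξ : H} {V : ℝ → H → H} (E : ModData M ξ)
    (hth : ∀ t F z, V t (E.Th F z) = E.Th F (V t z)) (hV0 : ∀ z, V 0 z = z) {k x g : H}
    (hm : ∀ F G : ℝ →ᵇ ℂ, (∀ h : ℝ, F h = Real.exp (h / 2) * G h) → E.Th G k = E.Th F x)
    (hc : H23.Ct V x g) (hk : ∀ t, Wg E V t k = k) : g = k := by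
  have hW0 : Wg E V 0 g = g := by
    show E.U (-0) (V 0 g) = g
    rw [hV0, neg_zero]
    have h1 := E.U_neg_apply 0 g
    rw [neg_zero] at h1
    have h2 := E.U_add_apply 0 0 g
    rw [add_zero] at h2
    rw [h2, h1]
  have h0 : ∀ y ∈ {y : H | ∃ χ : ℝ →ᵇ ℂ, HasCompactSupport χ ∧ ∃ y₀, E.Th χ y₀ = y},
      (inner ℂ y (g - k) : ℂ) = 0 := by
    rintro _ ⟨χ, hχ, y₀, rfl⟩
    obtain ⟨F, hF⟩ := pr_of E hth hm hc (T := fun _ => g) rfl χ hχ y₀
    have hcst : Bd (1 / 2) (fun _ : ℂ => (inner ℂ (E.Th χ y₀) k : ℂ)) :=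
      ⟨_, fun _ _ _ => le_rfl⟩
    have h1 := uniq (a := 1 / 2) (by norm_num) hF.dc
      (g := fun _ => (inner ℂ (E.Th χ y₀) k : ℂ)) diffContOnCl_const hF.bd hcst
      (fun t => by rw [hF.re, hk]) (z := ((0 : ℝ) : ℂ) - Complex.I / 2) (by simp) (by simp)
    rw [hF.lo, hW0] at h1
    rw [inner_sub_right, h1, sub_self]
  have h2 : ∀ y : H, (inner ℂ y (g - k) : ℂ) = 0 := by
    intro y
    have hcl : IsClosed {y : H | (inner ℂ y (g - k) : ℂ) = 0} :=
      isClosed_eq (continuous_id.inner continuous_const) continuous_const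
    exact closure_minimal (fun y hy => h0 y hy) hcl (denseY E y)
  exact sub_eq_zero.1 (inner_self_eq_zero.1 (h2 (g - k)))

variable {D : Type*} [NormedAddCommGroup D] [InnerProductSpace ℂ D] {Q : Theory D}
  {A : (V → V) → D → D} {𝒜 : Set V → VonNeumannAlgebra (Completion D)}

/-- the multiplets `Φ` and `Ψ` are adjoint -/
def Adj {k : ℕ} (Φ Ψ : (Fin k → Ix) → Fld D) : Prop :=
  ∀ (c : (Fin k → Ix) → ℂ) f v w, GF.IsTest f →
    inner ℂ (T.op Φ c f v) w = inner ℂ v (T.op Ψ (fun μ => conj (c μ)) (GF.bar f) w)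

/-- the modular conjugation of a wedge on one-field vectors -/
theorem jw (N : LNm Q A 𝒜) {a b : V} (ha : IsNull a) (hb : IsNull b) (hab : GF.mdot a b = 1)
    (E : ModData (𝒜 (Wdg a b 0)) (om Q)) {k : ℕ} {Φ Ψ : (Fin k → Ix) → Fld D}
    (hΦ : T.Ten Q k Φ) (hΨ : T.Ten Q k Ψ) (hadj : Adj Φ Ψ) (c : (Fin k → Ix) → ℂ) {f : Fn}
    (hf : In (Wdg a b 0) f) :
    ((T.op Φ (T.tp (T.rq a b) c) (T.cp (T.rq a b) f) Q.vac : D) : Completion D) =
      E.J ((T.op Ψ (fun μ => conj (c μ)) (GF.bar f) Q.vac : D) : Completion D) := by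
  have R := N.toRep
  have hU : UStmt Q A := ublock R
  have h1 : T.T1Stmt Q A := T.t1 Q A
  have T1' := h1 R
  have hN : T.NStmt (Completion D) := T.n
  have hS : T.SStmt Q A := fun R => T.s (ublock R) h1 T.o T.m hN ablock R
  have hw := N.wal ha hb hab
  have ifb : In (Wdg a b 0) (GF.bar f) := T1'.ib _ _ hf
  obtain ⟨G, g1, g2, g3, g4⟩ := T.o R k Φ c f a b hΦ ha hb hab hf
  have k1 : H23.Ct (T.bV Q a b) ((T.op Φ c f Q.vac : D) : Completion D)
      ((T.op Φ (T.tp (T.rq a b) c) (T.cp (T.rq a b) f) Q.vac : D) : Completion D) :=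
    T.ct_of g1 g2 g3 fun t => by
      rw [T.bV_coe hU ha hb hab, T.bV_coe hU ha hb hab]
      exact g4 t
  have m1 := (T.m _ Q.vac E (T.op Φ c f) (T.op Ψ (fun μ => conj (c μ)) (GF.bar f))).1
    (T.afs_of (fun v w => hadj c f v w hf.1) (hw.aff k Φ _ _ hΦ hf))
  refine val_eq E (fun t F z => (T.bV_nat hU hN hw E t).1 F z) (T.bV_zero hU ha hb hab) m1 k1
    fun t => ?_
  show E.U (-t) (T.bV Q a b t (E.J _)) = _
  rw [(T.bV_nat hU hN hw E t).2, T.bV_coe hU ha hb hab,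
    ← hS R a b _ E hw k Ψ _ _ t hΨ ifb, E.J_U, E.U_neg_apply]

/-! ### the rotation -/

/-- a null vector -/
def a0 : V := ![1, 1, 0, 0]

/-- a null vector -/
def b0 : V := ![1 / 2, -(1 / 2), 0, 0]

/-- the rotation by `π` -/
def mr : Ix → V := ![![1, 0, 0, 0], ![0, 1, 0, 0], ![0, 0, -1, 0], ![0, 0, 0, -1]]

lemma null_a0 : IsNull a0 := by
  refine ⟨?_, ?_⟩
  · rw [Reg1.md]; simp [a0]
  · show (0 : ℝ) < a0 0
    simp [a0]

lemma null_b0 : IsNull b0 := by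
  refine ⟨?_, ?_⟩
  · rw [Reg1.md]; simp [b0]
  · show (0 : ℝ) < b0 0
    simp [b0]

lemma dot_ab : GF.mdot a0 b0 = 1 := by
  rw [Reg1.md]; simp [a0, b0]; norm_num

lemma isLor_mr : IsLor mr := by
  refine ⟨fun m n => ?_, ?_, ?_⟩
  · rw [Reg1.md]
    fin_cases m <;> fin_cases n <;> simp [mr, bas, eta, o]
  · show (0 : ℝ) < mr 0 0
    simp [mr]
  · have : (mr : Matrix (Fin 4) (Fin 4) ℝ) = Matrix.diagonal ![1, 1, -1, -1] := by
      ext i j
      fin_cases i <;> fin_cases j <;> simp [mr]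
    show Matrix.det (mr : Matrix (Fin 4) (Fin 4) ℝ) = 1
    rw [this, Matrix.det_diagonal]
    simp [Fin.prod_univ_four]

lemma cm_mr : T.cm mr (T.rq a0 b0) = fun m => -GF.one m := by
  funext m n
  rw [T.cm_apply]
  fin_cases m <;> fin_cases n <;>
    simp [Fin.sum_univ_four, mr, T.rq, bst, GF.one, bas, eta, a0, b0, o, Matrix.vecHead,
      Matrix.vecTail] <;> norm_num

lemma tp_neg {k : ℕ} (c : (Fin k → Ix) → ℂ) :
    T.tp (fun m => -GF.one m) c = fun ν => (-1 : ℂ) ^ k * c ν := by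
  funext ν
  have h1 := congrFun (T.tp_one c) ν
  unfold T.tp at h1 ⊢
  rw [← h1, Finset.mul_sum]
  refine Finset.sum_congr rfl fun μ _ => ?_
  have : (∏ i, (-GF.one (ν i)) (μ i) : ℝ) = (-1) ^ k * ∏ i, GF.one (ν i) (μ i) := by
    simp only [Pi.neg_apply, Finset.prod_neg, Finset.card_univ, Fintype.card_fin]
  rw [this]
  push_cast
  ring

lemma cp_neg (f : Fn) : T.cp (fun m => -GF.one m) f = L.rf f := by
  funext x
  have : sim 1 (fun m => -GF.one m) 0 x = -x := by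
    funext n
    simp [sim, GF.one, bas]
  simp [L.rf, T.cp, this]

lemma op_smul {k : ℕ} (Φ : (Fin k → Ix) → Fld D) (e : ℂ) (c : (Fin k → Ix) → ℂ) (f : Fn) (v : D) :
    T.op Φ (fun ν => e * c ν) f v = e • T.op Φ c f v := by
  unfold T.op
  rw [Finset.smul_sum]
  exact Finset.sum_congr rfl fun μ _ => by rw [smul_smul]

/-- rotation of the reflected vectors -/
theorem rot (h : Rep Q A) {k : ℕ} {Φ : (Fin k → Ix) → Fld D} (hΦ : T.Ten Q k Φ)
    (c : (Fin k → Ix) → ℂ) {f : Fn} (hf : In (Wdg a0 b0 0) f) :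
    T.op Φ (T.tp (T.rq a0 b0) c) (T.cp (T.rq a0 b0) f) Q.vac =
      Q.U 1 mr 0 ((-1 : ℂ) ^ k • T.op Φ c (L.rf f) Q.vac) := by
  have T1' := T.t1 Q A h
  have hf' := (T1'.wr a0 b0 f null_a0 null_b0 dot_ab hf).1
  have h1 := T1'.cov k Φ (T.tp (T.rq a0 b0) c) mr (T.cp (T.rq a0 b0) f) Q.vac hΦ isLor_mr hf'
  rw [Q.U_vac 1 mr 0 one_pos isLor_mr, T.tp_tp, T.cp_cp, cm_mr, tp_neg, cp_neg, op_smul] at h1
  exact h1

/-- **The theorem PCT for the two-point functions**, test functions in the wedge -/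
theorem pct0 (N : LNm Q A 𝒜) {k : ℕ} {Φ Ψ : (Fin k → Ix) → Fld D}
    (hΦ : T.Ten Q k Φ) (hΨ : T.Ten Q k Ψ) (hadj : Adj Φ Ψ) (c : (Fin k → Ix) → ℂ) {f : Fn}
    (hf : In (Wdg a0 b0 0) f) {k' : ℕ} {Φ' Ψ' : (Fin k' → Ix) → Fld D}
    (hΦ' : T.Ten Q k' Φ') (hΨ' : T.Ten Q k' Ψ') (hadj' : Adj Φ' Ψ') (c' : (Fin k' → Ix) → ℂ)
    {f' : Fn} (hf' : In (Wdg a0 b0 0) f') :
    (-1 : ℂ) ^ (k + k') * inner ℂ (T.op Φ c (L.rf f) Q.vac) (T.op Φ' c' (L.rf f') Q.vac) =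
      inner ℂ (T.op Ψ' (fun μ => conj (c' μ)) (GF.bar f') Q.vac)
        (T.op Ψ (fun μ => conj (c μ)) (GF.bar f) Q.vac) := by
  obtain ⟨E⟩ := N.modW null_a0 null_b0 dot_ab
  have h1 := jw N null_a0 null_b0 dot_ab E hΦ hΨ hadj c hf
  have h2 := jw N null_a0 null_b0 dot_ab E hΦ' hΨ' hadj' c' hf'
  rw [rot N.toRep hΦ c hf] at h1
  rw [rot N.toRep hΦ' c' hf'] at h2
  rw [← Completion.inner_coe (T.op Ψ' (fun μ => conj (c' μ)) (GF.bar f') Q.vac), ← E.inner_J_J,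
    ← h1, ← h2, Completion.inner_coe, Q.U_inner 1 mr 0 _ _ one_pos isLor_mr, inner_smul_left,
    inner_smul_right, map_pow, map_neg, map_one, pow_add]
  ring

/-! ### translations -/

/-- the translated test function -/
def tr (y : V) (f : Fn) : Fn := fun x => f (x - y)

lemma sim_tr (y x : V) : sim 1 GF.one y x = x + y := HM.sim_tr y x

lemma tr_sim (y : V) (f : Fn) : (fun x => tr y f (sim 1 GF.one y x)) = f := by
  funext x
  simp [tr, sim_tr]

lemma rf_tr (y : V) (f : Fn) : (fun x => L.rf f (sim 1 GF.one y x)) = L.rf (tr y f) := by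
  funext x
  rw [sim_tr]
  show f (-(x + y)) = f (-x - y)
  congr 1
  abel

lemma tr_fl (y : V) (F : SchwartzMap Mink ℂ) : tr y (fl F) = fl (tauS (WithLp.toLp 2 y) F) := by
  funext x
  rw [fl_apply, tauS_apply]
  rfl

lemma in_tr {W : Set V} {y : V} {f : Fn} (hf : GF.IsTest f) (hc : HasCompactSupport f)
    (h : ∀ x ∈ tsupport f, x + y ∈ W) : In W (tr y f) := by
  obtain ⟨F, rfl⟩ := exists_fl hf
  have h1 : In (tsupport (fl F)) (fl F) := ⟨hf, hc, subset_rfl⟩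
  rw [tr_fl]
  refine In_fl.2 ((In_fl.1 h1).tauS _ fun x hx => ?_)
  exact h x.ofLp hx

lemma test_rf {f : Fn} (hf : GF.IsTest f) : GF.IsTest (L.rf f) := by
  have h : ∀ x, sim 1 (fun m => -GF.one m) 0 (sim 1 (fun m => -GF.one m) 0 x) = x := by
    intro x
    have h2 : ∀ x, sim 1 (fun m => -GF.one m) 0 x = -x := fun x => by
      funext n
      simp [sim, GF.one, bas]
    rw [h2, h2, neg_neg]
  rw [← cp_neg]
  exact T.test_cp h h hf

/-- compact sets are translated into the wedge -/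
lemma ex_tr {K : Set V} (hK : IsCompact K) : ∃ y, ∀ x ∈ K, x + y ∈ Wdg a0 b0 0 := by
  obtain ⟨C1, h1⟩ := hK.exists_bound_of_continuousOn (HM.H584.cont_md a0).continuousOn
  obtain ⟨C2, h2⟩ := hK.exists_bound_of_continuousOn (HM.H584.cont_md b0).continuousOn
  have hba : GF.mdot b0 a0 = 1 := by rw [md_comm]; exact dot_ab
  have haa := null_a0.1
  have hbb := null_b0.1
  refine ⟨(|C1| + |C2| + 1) • a0 + (-(|C1| + |C2| + 1)) • b0, fun x hx => ?_⟩
  have e1 := h1 x hx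
  have e2 := h2 x hx
  rw [Real.norm_eq_abs] at e1 e2
  have e3 := le_abs_self (GF.mdot a0 x)
  have e4 := neg_abs_le (GF.mdot b0 x)
  have e5 := le_abs_self C1
  have e6 := le_abs_self C2
  have e7 := abs_nonneg C1
  have e8 := abs_nonneg C2
  refine ⟨?_, ?_⟩
  · rw [sub_zero, md_add, md_add, md_smul, md_smul, haa, dot_ab]
    linarith
  · rw [sub_zero, md_add, md_add, md_smul, md_smul, hbb, hba]
    linarith

lemma op_tr {k : ℕ} {Φ : (Fin k → Ix) → Fld D} (hΦ : ∀ μ, Q.fld (Φ μ)) (c : (Fin k → Ix) → ℂ)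
    {f : Fn} (hf : GF.IsTest f) (y : V) :
    T.op Φ c f Q.vac = Q.U 1 GF.one y (T.op Φ c (fun x => f (sim 1 GF.one y x)) Q.vac) := by
  unfold T.op
  rw [H246.U_sum one_pos isLor_one]
  refine Finset.sum_congr rfl fun μ _ => ?_
  rw [U_smul one_pos isLor_one]
  have h1 := Q.transl (Φ μ) y f Q.vac (hΦ μ) hf
  rw [Q.U_vac 1 GF.one y one_pos isLor_one] at h1
  rw [h1]

/-- **The theorem PCT for the two-point functions** -/
theorem pct (N : LNm Q A 𝒜) {k : ℕ} {Φ Ψ : (Fin k → Ix) → Fld D}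
    (hΦ : T.Ten Q k Φ) (hΨ : T.Ten Q k Ψ) (hadj : Adj Φ Ψ) (c : (Fin k → Ix) → ℂ) {f : Fn}
    (hf : GF.IsTest f) (hc : HasCompactSupport f) {k' : ℕ} {Φ' Ψ' : (Fin k' → Ix) → Fld D}
    (hΦ' : T.Ten Q k' Φ') (hΨ' : T.Ten Q k' Ψ') (hadj' : Adj Φ' Ψ') (c' : (Fin k' → Ix) → ℂ)
    {f' : Fn} (hf' : GF.IsTest f') (hc' : HasCompactSupport f') :
    (-1 : ℂ) ^ (k + k') * inner ℂ (T.op Φ c (L.rf f) Q.vac) (T.op Φ' c' (L.rf f') Q.vac) =
      inner ℂ (T.op Ψ' (fun μ => conj (c' μ)) (GF.bar f') Q.vac)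
        (T.op Ψ (fun μ => conj (c μ)) (GF.bar f) Q.vac) := by
  obtain ⟨y, hy⟩ := ex_tr (hc.isCompact.union hc'.isCompact)
  have h1 := in_tr hf hc fun x hx => hy x (Or.inl hx)
  have h2 := in_tr hf' hc' fun x hx => hy x (Or.inr hx)
  have key := pct0 N hΦ hΨ hadj c h1 hΦ' hΨ' hadj' c' h2
  have e1 := op_tr hΦ.fld c (test_rf hf) y
  have e2 := op_tr hΦ'.fld c' (test_rf hf') y
  rw [rf_tr] at e1 e2
  have e3 := op_tr (f := GF.bar (tr y f)) hΨ.fld (fun μ => conj (c μ)) (T.test_bar h1.1) y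
  have e4 := op_tr (f := GF.bar (tr y f')) hΨ'.fld (fun μ => conj (c' μ)) (T.test_bar h2.1) y
  have e5 : (fun x => GF.bar (tr y f) (sim 1 GF.one y x)) = GF.bar f := tr_sim y (GF.bar f)
  have e6 : (fun x => GF.bar (tr y f') (sim 1 GF.one y x)) = GF.bar f' := tr_sim y (GF.bar f')
  rw [e5] at e3
  rw [e6] at e4
  rw [e3, e4, Q.U_inner 1 GF.one y _ _ one_pos isLor_one] at key
  rw [e1, e2, Q.U_inner 1 GF.one y _ _ one_pos isLor_one]
  exact key

end Vale.Agent.P352.BW.H49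

end
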